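import Vale.Agent.P014U.Dr.Unr
import Vale.Agent.P014T.Dr.Shp

/-! # P014U, block DER: row SHP, from the raw to the exact Euler system (helper7) -/

set_option linter.all false

open NumberField Matrix

noncomputable section

namespace Vale.Agent.P014U.Dr

open Vale.Agent.P022 (Qb GQ)
open Vale.Agent.P022E.GW (Ov Fb)
open Vale.Agent.P004F (M2)

export Vale.Agent.P014T.Dr (Bd ch_iff Zc cl cj_mul cj_cob sum_rep bij_mul cr cr_eq nm nm_eq)

variable [Pp] {N M : ℕ} {ρ : GQ →* M2 (Zn N)} {A : Type} [CommRing A] {ι : Zn N →+* A} {Ψ : GQ →* A}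
  {y y' : GQ → Fin 2 → Zn N} {H : Subgroup GQ}

variable (ι) in
/-- change of coefficients -/
def lf : (GQ → Fin 2 → Zn N) →+ GQ → Fin 2 → A where
  toFun y g := ι ∘ y g
  map_zero' := funext fun _ => funext fun _ => map_zero ι
  map_add' _ _ := funext fun _ => funext fun _ => map_add ι _ _

theorem aa_lf (g : GQ) (w : Fin 2 → Zn N) : aa ρ ι Ψ g *ᵥ (ι ∘ w) = Ψ g • (ι ∘ (ρ g *ᵥ w)) := by
  rw [aa, smul_mulVec]
  exact congrArg _ (funext fun i => (RingHom.map_mulVec ..).symm)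

theorem cj_lf (s : GQ) : cj (am ρ ι Ψ) s (lf ι y) = Ψ s • lf ι (cj ρ s y) := funext fun _ => aa_lf ..

theorem _root_.Vale.Agent.P014T.Dr.Co.lfp (c : Co H ρ y) (e : ∀ g ∈ H, Ψ g = 1) : Co H (am ρ ι Ψ) (lf ι y) :=
  ⟨fun g m h m' => by
    show ι ∘ _ = ι ∘ _ + aa ρ ι Ψ g *ᵥ (ι ∘ _)
    rw [c.coc g m h m', aa_lf, e g m, one_smul]
    exact funext fun _ => map_add .., c.lc.imp fun W w => ⟨w.1, fun g a b => by
    show ι ∘ _ = _
    rw [w.2 g a b]
    exact funext fun _ => map_zero _⟩⟩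

theorem _root_.Vale.Agent.P014T.Dr.Ch.lfp (c : Ch H ρ y y') (e : ∀ g ∈ H, Ψ g = 1) : Ch H (am ρ ι Ψ) (lf ι y) (lf ι y') :=
  c.elim fun w h => ⟨ι ∘ w, fun g m => by
    show ι ∘ _ - ι ∘ _ = aa ρ ι Ψ g *ᵥ _ - _
    rw [aa_lf, e g m, one_smul]
    exact funext fun i => by simpa using congrArg (fun v => ι (v i)) (h g m)⟩

/-- **row SHP** -/
theorem shp : SHP := fun N ρ S a Ad y G R k hk => by
  have fi M (m : Ad M) : Fintype (GQ ⧸ Hm M) :=
    have := (Hm M).quotient_finite_of_isOpen (Hm_open (G.pos M m))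
    Fintype.ofFinite _
  have co M (A : Type) [CommRing A] ι (Ψ : GQ →* A) (m : Ad M) (c : Cd M Ψ) :
      Co ⊤ (am ρ ι Ψ) (cor ρ ι Ψ (Hm M) (y M)) :=
    have := fi M m
    ((R.co M m).lfp c).cr (Hm_open (G.pos M m))
  have zc M (A : Type) [CommRing A] ι (Ψ : GQ →* A) (m : Ad M) (c : Cd M Ψ) :
      cor ρ ι Ψ (Hm M) (y M) ∈ Zc (am ρ ι Ψ) :=
    fun g h => (co M A ι Ψ m c).coc g trivial h trivial
  have sl (A : Type) [CommRing A] ι (Ψ : GQ →* A) M M' T (t : Tv (Hm M) (Hm M') T)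
      (c : Cd M Ψ) :
      ∑ s ∈ T, cj (am ρ ι Ψ) s (lf ι (y M')) = lf ι (∑ s ∈ T, cj ρ s (y M')) := by
    rw [map_sum]
    exact Finset.sum_congr rfl fun s m => by rw [cj_lf, c s (t.1 s m), one_smul]
  refine ⟨fun M A _ ι Ψ => nm (aa ρ ι Ψ) k (cor ρ ι Ψ (Hm M) (y M)),
    ⟨fun M A _ ι Ψ m c => (co M A ι Ψ m c).nm k, fun M A B _ _ f ι Ψ g i m => ?_,
      fun M A _ ι Ψ m c => ?_, fun M A _ ι Ψ l P φ m c o s d f => ?_⟩,
    fun M A _ ι Ψ m c => ⟨co M A ι Ψ m c, ?_, fun T t => ?_⟩⟩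
  · have := fi M m
    have e g : f ∘ cor ρ ι Ψ (Hm M) (y M) g =
        cor ρ (f.comp ι) (f.toMonoidHom.comp Ψ) (Hm M) (y M) g := funext fun i => by
      simp only [cor, finsum_eq_sum_of_fintype, Function.comp, Finset.sum_apply, map_sum,
        RingHom.map_mulVec, aa_map]
      rfl
    have q : f.mapMatrix (aa ρ ι Ψ k - 1) = aa ρ (f.comp ι) (f.toMonoidHom.comp Ψ) k - 1 := by
      rw [map_sub, map_one, RingHom.mapMatrix_apply, aa_map]
    have r : f ∘ ((aa ρ ι Ψ k - 1).adjugate *ᵥ cor ρ ι Ψ (Hm M) (y M) k) = _ := funext fun i => by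
      rw [Function.comp, RingHom.map_mulVec, ← RingHom.mapMatrix_apply, RingHom.map_adjugate, q, e]
    simp only [nm, LinearMap.coe_mk, AddHom.coe_mk, Pi.smul_apply, Pi.sub_apply, smul_eq_mul, map_mul,
      map_sub, RingHom.map_det, q, RingHom.map_mulVec f (aa ρ ι Ψ g), r, aa_map, ← e]
    rw [e k, ← congrFun r i]
    rfl
  · have := fi M m
    have := fi _ (G.ad2 M m)
    obtain ⟨T, t, h⟩ := R.two M m
    have c' := c.mono ⟨pp, rfl⟩
    have le := Ha_le (G.pos M m)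
    refine nm_eq (a := am ρ ι Ψ) hk (zc _ A ι Ψ (G.ad2 M m) c') (zc M A ι Ψ m c) ?_
    refine (((R.co _ (G.ad2 M m)).lfp c').mk_tr (Ha_le (G.pos _ (G.ad2 M m))) (Hm_le ⟨pp, rfl⟩) t).trans
      (Eq.trans (Finset.sum_congr rfl fun x _ => ?_) (((R.co M m).lfp c).mk_cr le
        (s := Quotient.out) (by simpa using Function.bijective_id)).symm)
    rw [sl A ι Ψ _ _ T t c]
    exact ch_iff.1 ((h.lfp fun g a => c g (le a)).cj _)
  · have m' := G.adl M l m o.1 s d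
    have := fi M m
    have := fi _ m'
    obtain ⟨T, t, h⟩ := R.odd M l P φ m o s d f
    have c' := c.mono ⟨l, rfl⟩
    have le := Ha_le (G.pos M m)
    have k0 := ((R.co M m).lfp (ι := ι) c).mk_sh le
    have k1 (ψ : GQ) : lf ι (cj ρ ψ⁻¹ (y M)) = Ψ ψ • cj (am ρ ι Ψ) ψ⁻¹ (lf ι (y M)) := by
      rw [cj_lf, smul_smul, ← map_mul, mul_inv_cancel, map_one, one_smul]
    rw [← map_smul, ← map_smul]
    refine nm_eq (a := am ρ ι Ψ) hk (Submodule.smul_mem _ _ (zc _ A ι Ψ m' c'))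
      (Submodule.smul_mem _ _ (zc M A ι Ψ m c)) ?_
    rw [map_smul, map_smul, show cor ρ ι Ψ _ (y (M * l)) = cr (am ρ ι Ψ) _ (lf ι (y (M * l))) from rfl,
      ((R.co _ m').lfp c').mk_tr (Ha_le (G.pos _ m')) (Hm_le ⟨l, rfl⟩) t, Finset.smul_sum,
      show cor ρ ι Ψ _ (y M) = cr (am ρ ι Ψ) _ (lf ι (y M)) from rfl, add_smul, sub_smul]
    nth_rw 1 [← k0 1]
    nth_rw 1 [← k0 φ⁻¹]
    rw [← k0 (φ ^ 2)⁻¹]
    simp only [Finset.smul_sum, ← Finset.sum_sub_distrib, ← Finset.sum_add_distrib, ← map_smul,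
      ← map_sub, ← map_add]
    refine Finset.sum_congr rfl fun x _ => ch_iff.1 (P014T.Dr.Ch.cj ?_ _)
    have := h.lfp (ι := ι) fun g a => c g (le a)
    rw [map_nsmul, map_add, map_sub, map_nsmul, map_zsmul, inv_pow, k1, k1, ← sl A ι Ψ _ _ T t c,
      map_pow, ← Nat.cast_smul_eq_nsmul A, ← Nat.cast_smul_eq_nsmul A, ← Int.cast_smul_eq_zsmul A,
      smul_smul, Finset.smul_sum] at this
    rw [show cj (am ρ ι Ψ) 1 (lf ι (y M)) = lf ι (y M) from funext fun g => by simp [cj]]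
    exact this
  · have q : (aa ρ ι Ψ k - 1).det = ι (ρ k - 1).det := by
      rw [RingHom.map_det, map_sub, map_one, aa, c k (Ha_le (G.pos M m) hk), one_smul]; rfl
    refine ⟨-(ι (ρ k - 1).det • ((aa ρ ι Ψ k - 1).adjugate *ᵥ cor ρ ι Ψ (Hm M) (y M) k)), fun g _ => ?_⟩
    simp only [nm, LinearMap.coe_mk, AddHom.coe_mk, q, Pi.smul_apply, mulVec_neg, mulVec_smul]
    module
  · have := fi M m
    refine ch_iff.2 ((((R.co M m).lfp c).mk_cr le_rfl t.bij).trans ?_)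
    rw [← map_sum, Finset.sum_coe_sort T fun s => cj (am ρ ι Ψ) s (lf ι (y M))]
    exact congrArg _ (funext fun g => by simp only [Finset.sum_apply, cj_lf]; rfl)

end Vale.Agent.P014U.Dr
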