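import Vale.Agent.P014U.Dr.Unr
import Vale.Agent.P014T.Dr.Kol

/-! # P014U, block DER: row KOL, the derivative classes (helper7) -/

set_option linter.all false

open NumberField Matrix

noncomputable section

namespace Vale.Agent.P014U.Dr

open Vale.Agent.P022 (Qb GQ IsConj)
open Vale.Agent.P027M.S (Inert)
open Vale.Agent.P022E.GW (Ov Fb)
open Vale.Agent.P022.H443 (inP)
open Vale.Agent.P004F (M2 Cc)
open scoped Classical

export Vale.Agent.P014T.Dr (ex_big prod_fix)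

variable [Pp] {N M : ℕ} {ρ : GQ →* M2 (Zn N)} {S : Finset ℕ} {a : ℕ → ℤ} {Ad : ℕ → Prop} {z : Fm N}
  {R B : Type} [CommRing R] [CommRing B] {ι : Zn N →+* R} {ψ : GQ →* R}

/-- `1 + χ x` -/
def xi (ι : Zn N →+* B) (χ : GQ →* Multiplicative (Zn N)) {x : B} (h : x ^ 2 = 0) : GQ →* B where
  toFun g := 1 + ι (χ g).toAdd * x
  map_one' := by simp
  map_mul' g k := by
    rw [map_mul, toAdd_mul, map_add]
    linear_combination -ι (χ g).toAdd * ι (χ k).toAdd * h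

theorem Kp.one (ι' : Zn N →+* B) (k : Kp ρ S ι ψ M) : (k.l : B) = 1 := by
  have : (pp : B) ^ N = 0 := by
    simpa only [map_zero, Nat.cast_pow, map_pow, map_natCast] using
      congrArg ι' (ZMod.natCast_self (pp ^ N))
  rw [← Nat.div_add_mod k.l (pp ^ (N + 2)), k.md]
  simp [pow_add, this]

theorem Inj.mono {n n' : Finset (Kp ρ S ι ψ M)} (h : Inj n') (s : n ⊆ n') : Inj n :=
  fun k a k' b => h k (s a) k' (s b)

theorem nd_prod {l : ℕ} (p : l.Prime) {n : Finset (Kp ρ S ι ψ M)} (d : ¬ l ∣ M)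
    (h : ∀ k ∈ n, k.l ≠ l) : ¬ l ∣ M * ∏ k ∈ n, k.l := fun e => (p.dvd_mul.1 e).elim d fun e => by
  obtain ⟨k, m, e⟩ := (p.prime.dvd_finset_prod_iff _).1 e
  exact h k m ((Nat.prime_dvd_prime_iff_eq p k.ov.1).1 e).symm

theorem Inj.nd {n : Finset (Kp ρ S ι ψ M)} {q} (h : Inj (insert q n)) (m : q ∉ n) :
    ¬ q.l ∣ M * ∏ k ∈ n, k.l := nd_prod q.ov.1 q.cop fun k a e =>
  m (h k (Finset.mem_insert_of_mem a) q (Finset.mem_insert_self ..) e ▸ a)

theorem Inj.ad (G : Gr ρ S a Ad) (m : Ad M) {n : Finset (Kp ρ S ι ψ M)} (h : Inj n) :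
    Ad (M * ∏ k ∈ n, k.l) := by
  induction n using Finset.induction with
  | empty => simpa using m
  | insert q n hq ih =>
    rw [Finset.prod_insert hq, mul_comm q.l, ← mul_assoc]
    exact G.adl _ _ (ih (h.mono (Finset.subset_insert ..))) q.ov.1 q.out (h.nd hq)

theorem out_of {n : Finset (Kp ρ S ι ψ M)} (m : M ≠ 0) {l : ℕ} (p : l.Prime)
    (h : l ∉ ((S ∪ M.primeFactors ∪ n.image (·.l) : Finset ℕ) : Set ℕ)) :
    l ∉ S ∧ ¬ l ∣ M ∧ ¬ l ∣ M * ∏ k ∈ n, k.l := by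
  simp only [Finset.mem_coe, Finset.mem_union, not_or, Nat.mem_primeFactors, Finset.mem_image] at h
  exact ⟨h.1.1, fun d => h.1.2 ⟨p, d, m⟩, nd_prod p (fun d => h.1.2 ⟨p, d, m⟩) fun k a e => h.2 ⟨k, a, e⟩⟩

theorem adj_aa {ι : Zn N →+* B} {Ψ : GQ →* B} (g : GQ) :
    (1 - aa ρ ι Ψ g).adjugate = 1 - Ψ g • ((ρ g).map ι).adjugate := by
  ext i j
  fin_cases i <;> fin_cases j <;> simp [aa, adjugate_fin_two]

/-- unramified at every place prime to `pp` where `ρ` is, also in `S` -/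
def Su (κ : Finset (Kp ρ S ι ψ M) → GQ → Fin 2 → R) : Prop :=
  ∀ n, Inj n → ∀ l P i, Ug ρ l P → (∀ k ∈ n, k.l ≠ l) → Inert P i → ψ i = 1 → κ n i = 0

theorem Ks.cc0 {κ : Finset (Kp ρ S ι ψ M) → GQ → Fin 2 → R} (K : Ks κ) (U : Su κ) (m : M ≠ 0)
    (c : Cd M ψ) {S₀ : Finset ℕ} (h : ∀ l P, Ov l P → l ∉ S₀ → Ug ρ l P) {n} (hn : Inj n) :
    Cc ⊤ (S₀ ∪ M.primeFactors ∪ n.image (·.l)) (aa ρ ι ψ) (κ n) :=
  ⟨(K.cc n hn).coc, (K.cc n hn).out, (K.cc n hn).lc, fun g ⟨l, k, P, o, i⟩ => by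
    simp only [Finset.mem_coe, Finset.mem_union, not_or, Nat.mem_primeFactors, Finset.mem_image] at k
    exact U n hn l P g (h l P o k.1.1) (fun q a e => k.2 ⟨q, a, e⟩) i
      (c g (inert_Hm o (fun d => k.1.2 ⟨o.1, d, m⟩) i))⟩

theorem kol0 (G : Gr ρ S a Ad) (E : Eu ρ S a Ad z) (m : Ad M) (c : Cd M ψ)
    (nil : ∀ g, IsNilpotent (ψ g - 1)) :
    ∃ κ : Finset (Kp ρ S ι ψ M) → GQ → Fin 2 → R, Ks κ ∧ Su κ ∧ κ ∅ = z M R ι ψ := by
  obtain ⟨B, _, j, x, co, x2, h1, h2, h3⟩ := ex_big R (Kp ρ S ι ψ M)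
  choose χ k1 k2 using fun k : Kp ρ S ι ψ M => ex_chi k.ov k.gn k.md
  let ξ k := xi (j.comp ι) (χ k) (x2 k)
  let Ψ (n : Finset (Kp ρ S ι ψ M)) := j.toMonoidHom.comp ψ * ∏ k ∈ n, ξ k
  let Z (n : Finset (Kp ρ S ι ψ M)) := z (M * ∏ k ∈ n, k.l) B (j.comp ι) (Ψ n)
  have v n g : Ψ n g = j (ψ g) * ∏ k ∈ n, (1 + j (ι (χ k g).toAdd) * x k) := by
    simp only [Ψ, MonoidHom.mul_apply, MonoidHom.finset_prod_apply]; rfl
  have c1 k : Cd k.l (ξ k) := fun g h => by simp [ξ, xi, k1 k g h]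
  have cn n : Cd (M * ∏ k ∈ n, k.l) (Ψ n) := ((c.map j).mono ⟨_, rfl⟩).mul fun g h => by
    rw [MonoidHom.finset_prod_apply]
    exact Finset.prod_eq_one fun k a => c1 k g (Hm_le ((Finset.dvd_prod_of_mem _ a).mul_left M) h)
  have nn n g : IsNilpotent (Ψ n g - 1) := by
    rw [v]
    refine nil_mul (nil_map j (nil g)) (Finset.prod_induction _ (fun y => IsNilpotent (y - 1))
      (fun _ _ => nil_mul) (by simp) fun k _ => ⟨2, ?_⟩)
    linear_combination j (ι (χ k g).toAdd) ^ 2 * x2 k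
  have st n q (h : q ∉ n) : Z (insert q n) = z ((M * ∏ k ∈ n, k.l) * q.l) B (j.comp ι) (Ψ n * ξ q) := by
    simp only [Z, Ψ, Finset.prod_insert h, mul_assoc, mul_comm q.l, mul_comm (ξ q)]
  have fx n g (u : Fin 2 → B) (h : ∀ k ∈ n, x k • u = 0) : Ψ n g • u = j (ψ g) • u := funext fun i => by
    rw [v, Pi.smul_apply, smul_eq_mul, mul_assoc, prod_fix fun k a => congrFun (h k a) i]; rfl
  have an n (hn : Inj n) : ∀ k ∈ n, ∀ g, x k • Z n g = 0 := by
    induction n using Finset.strongInduction with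
    | H n ih =>
      intro q hq g
      obtain ⟨n, h, rfl⟩ : ∃ s, q ∉ s ∧ n = insert q s :=
        ⟨n.erase q, n.notMem_erase q, (Finset.insert_erase hq).symm⟩
      have hn' := hn.mono (Finset.subset_insert ..)
      have f := fx n q.φ _ fun k a => ih n (Finset.ssubset_insert h) hn' k a g
      have d := congrArg j ((det_aa (ι := ι) (Ψ := ψ) _ (G.frb _ _ _ q.ov q.out q.fb) 1).symm.trans
        (show _ = 0 by rw [one_smul]; exact q.det))
      simp only [map_add, map_sub, map_mul, map_pow, map_one, map_intCast, q.one ι, map_zero] at d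
      rw [st n q h, E.modx G (hn'.ad G m) (cn n) q.ov q.out (hn.nd h) q.fb (q.one (j.comp ι)) (x2 q)
        (ξ := ξ q) fun g => ⟨_, rfl⟩]
      funext i
      have := congrFun f i
      simp only [Pi.smul_apply, smul_eq_mul, Pi.zero_apply, Z] at this ⊢
      linear_combination x q * (Ψ n q.φ + j (ψ q.φ) - a q.l) * this + x q * z _ B _ (Ψ n) g i * d
  have mv n (A : M2 R) (u : Fin 2 → B) : co n ∘ (A.map j *ᵥ u) = A *ᵥ (co n ∘ u) := funext fun i => by
    simp only [Function.comp, mulVec, dotProduct, map_sum, map_apply, h1]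
  have sm n (hn : Inj n) g h (A : M2 B) : Ψ n g • A *ᵥ Z n h = j (ψ g) • A *ᵥ Z n h :=
    fx n g _ fun k a => by rw [← mulVec_smul, an n hn k a, mulVec_zero]
  refine ⟨fun n g => co n ∘ Z n g, ⟨fun n hn => ?_, fun n q h hn => ?_⟩,
    fun n hn l P i U h hi e => ?_, ?_⟩
  · have e := E.co _ B (j.comp ι) _ (hn.ad G m) (cn n)
    refine ⟨fun g _ h _ => ?_, fun g h => absurd trivial h, e.lc.imp fun W w => ⟨w.1, fun g h => ?_⟩,
      fun g ⟨l, h, P, o, i⟩ => ?_⟩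
    · rw [show Z n (g * h) = _ from e.coc g trivial h trivial, aa, smul_mulVec, sm n hn, ← smul_mulVec]
      refine Eq.trans ?_ (congrArg _ (mv n _ _))
      rw [aa_map]
      exact funext fun i => map_add ..
    · rw [show Z n g = 0 from w.2 g h trivial]; exact funext fun _ => map_zero _
    · have k := out_of (G.pos _ m) o.1 h
      rw [show Z n g = 0 from unr N ρ S a Ad z G E _ B _ _ (hn.ad G m) (cn n) (nn n) l P g o k.1 i
        (cn n g (inert_Hm o k.2.2 i))]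
      exact funext fun _ => map_zero _
  · have hn' := hn.mono (Finset.subset_insert ..)
    have f := fs (ι := j.comp ι) E G (hn'.ad G m) (cn n) (nn n) q.ov q.out (hn.nd h) q.fb q.gn.1
      (q.one (j.comp ι)) (x2 q) (c1 q) (fun g => ⟨_, rfl⟩) (by simp [ξ, xi, k2])
      ((inP q.P).pow_mem q.gn.1 (-(χ q q.φ).toAdd).val) (by simp [ξ, xi, k2])
    rw [st n q h, f, ← mv, ← RingHom.mapMatrix_apply, RingHom.map_adjugate, map_sub, map_one,
      RingHom.mapMatrix_apply, aa_map, adj_aa, adj_aa, sub_mulVec, sub_mulVec, smul_mulVec,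
      smul_mulVec, sm n hn']
    exact funext fun i => (map_neg ..).trans (congrArg _ (h2 _ _ _ h))
  · show co n ∘ Z n i = 0
    rw [show Z n i = 0 from unr0 G E (hn.ad G m) (cn n) (nn n) U hi (by
      rw [v, e, map_one, one_mul]
      exact Finset.prod_eq_one fun k a => c1 k i (inert_Hm U.ov (fun d => h k a
        ((Nat.prime_dvd_prime_iff_eq U.ov.1 k.ov.1).1 d).symm) hi))]
    exact funext fun _ => map_zero _
  · funext g i
    simp only [Z, Ψ, Finset.prod_empty, mul_one, Function.comp, ← E.map _ _ _ j _ _ _ _ m, h3]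

/-- the framed family -/
theorem kol1 (G : Gr ρ S a Ad) (E : Eu ρ S a Ad z) (m : Ad M) (c : Cd M ψ)
    (nil : ∀ g, IsNilpotent (ψ g - 1)) {s : GQ} (hs : IsConj s) :
    ∃ κ : Finset (Kp ρ S ι ψ M) → GQ → Fin 2 → R, Ks κ ∧ Su κ ∧ (∀ n, Inj n → κ n s = 0) ∧
      ∀ g, κ ∅ g = 2 • z M R ι ψ g + (aa ρ ι ψ g *ᵥ z M R ι ψ s - z M R ι ψ s) := by
  obtain ⟨κ, K, U, e⟩ := kol0 (ι := ι) G E m c nil
  have co n (h : Inj n) : Co ⊤ (am ρ ι ψ) (κ n) :=
    ⟨(K.cc n h).coc, (K.cc n h).lc.imp fun W w => ⟨w.1, fun g h _ => w.2 g h⟩⟩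
  refine ⟨fun n g => 2 • κ n g + (aa ρ ι ψ g *ᵥ κ n s - κ n s), ⟨fun n hn => ?_, fun n q h hn => ?_⟩,
    fun n hn l P i u h hi p => by simp [U n hn l P i u h hi p, aa_eq_one (u.unr i hi) p],
    fun n hn => ?_, fun g => by rw [← e]⟩
  · refine ⟨fun g _ h _ => ?_, fun g h => absurd trivial h, ?_, fun g hg => ?_⟩
    · show _ = _ + aa ρ ι ψ g *ᵥ _
      rw [(co n hn).coc g trivial h trivial, aa_mul, ← mulVec_mulVec, mulVec_add, mulVec_sub, two_smul,
        two_smul, two_smul, mulVec_add]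
      show κ n g + aa ρ ι ψ g *ᵥ κ n h + (κ n g + aa ρ ι ψ g *ᵥ κ n h) + _ = _
      abel
    · obtain ⟨U, u1, u2, u3⟩ := (co n hn).core
      refine ⟨U, u2, fun w hw => ?_⟩
      have := (co n hn).coc w trivial s trivial
      rw [show w * s = s * (s⁻¹ * w * s⁻¹⁻¹) by group, (co n hn).coc _ trivial _ trivial,
        u3 _ (u1.conj_mem _ hw _), u3 w hw, mulVec_zero, add_zero, zero_add] at this
      rw [u3 w hw, smul_zero, zero_add, sub_eq_zero]
      exact this.symm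
    · rw [(K.cc n hn).unr g hg]
      obtain ⟨l, h, P, o, i⟩ := hg
      have k := out_of (G.pos _ m) o.1 h
      simp [aa_eq_one (G.unr l P o k.1 g i) (c g (inert_Hm o k.2.1 i))]
  · rw [K.fs n q h hn, aa_eq_one (G.unr _ _ q.ov q.out _ q.gn.1) (c _ (inert_Hm q.ov q.cop q.gn.1)),
      one_mulVec, sub_self, add_zero, mulVec_add, ← neg_sub (κ n s), mulVec_neg, mulVec_smul]
    nth_rw 1 [← one_mulVec (κ n s)]
    rw [← sub_mulVec, mulVec_mulVec, adjugate_mul, q.det]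
    simp
  · have := (co n hn).coc s trivial s trivial
    rw [P004F.Pt.cj_sq hs, (co n hn).one] at this
    simp only [two_smul, add_assoc, add_sub_cancel]
    exact this.symm

/-- **row KOL** -/
theorem kol : KOL := fun N ρ S a Ad z G E M R _ ι ψ m c nil =>
  ⟨(kol0 G E m c nil).imp fun _ h => ⟨h.1, h.2.2⟩, fun s hs => (kol1 G E m c nil hs).imp fun κ h =>
    ⟨h.1, h.2.2.1, z M R ι ψ s, fun g _ => by
      rw [h.2.2.2]; exact add_sub_cancel_left (2 • z M R ι ψ g) _⟩⟩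

end Vale.Agent.P014U.Dr
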