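import Vale.Agent.P014U.Gn
import Vale.Agent.P014T.Dr.St

/-! # P014U, block DER: Euler systems over the cyclotomic fields (words and rows; helper7) -/

set_option linter.all false

open NumberField Matrix

noncomputable section

namespace Vale.Agent.P014U.Dr

open Vale.Agent.P022 (Qb GQ IsConj)
open Vale.Agent.P027M.S (Inert)
open Vale.Agent.P022E.GW (Ov Fb)
open Vale.Agent.P004F (M2 Cc)

export Vale.Agent.P014T.Dr (Hm Ha Co cj Ch Tv Cd)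

variable [Pp]

abbrev Zn (N : ℕ) : Type := ZMod (pp ^ N)

variable {N : ℕ} (ρ : GQ →* M2 (Zn N)) (S : Finset ℕ) (a : ℕ → ℤ) (Ad : ℕ → Prop)

/-- the representation and the admissible conductors -/
structure Gr : Prop where
  two : pp ∈ S
  unr : ∀ l P, Ov l P → l ∉ S → ∀ i, Inert P i → ρ i = 1
  frb : ∀ l P φ, Ov l P → l ∉ S → Fb l P φ → (ρ φ).det = l ∧ (ρ φ).trace = a l
  pos : ∀ M, Ad M → M ≠ 0
  ad2 : ∀ M, Ad M → Ad (M * pp)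
  adl : ∀ M l, Ad M → l.Prime → l ∉ S → ¬ l ∣ M → Ad (M * l)

/-- **the raw Euler system**: the relations are only asked on `Ha` -/
structure Raw (y : ℕ → GQ → Fin 2 → Zn N) : Prop where
  co : ∀ M, Ad M → Co (Hm M) ρ (y M)
  two : ∀ M, Ad M → ∃ T, Tv (Hm M) (Hm (M * pp)) T ∧ Ch Ha ρ (∑ s ∈ T, cj ρ s (y (M * pp))) (y M)
  odd : ∀ M l P φ, Ad M → Ov l P → l ∉ S → ¬ l ∣ M → Fb l P φ → ∃ T, Tv (Hm M) (Hm (M * l)) T ∧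
    Ch Ha ρ (l • ∑ s ∈ T, cj ρ s (y (M * l))) (l • y M - a l • cj ρ φ⁻¹ (y M) + cj ρ (φ⁻¹ ^ 2) (y M))

/-- the twisted action -/
def aa {A : Type} [CommRing A] (ι : Zn N →+* A) (Ψ : GQ →* A) (g : GQ) : M2 A := Ψ g • (ρ g).map ι

/-- families of cochains, one for every character -/
abbrev Fm (N : ℕ) : Type 1 :=
  ℕ → ∀ (A : Type) [CommRing A], (Zn N →+* A) → (GQ →* A) → GQ → Fin 2 → A

/-- **the exact Euler system** -/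
structure Eu (z : Fm N) : Prop where
  co : ∀ M (A : Type) [CommRing A] ι Ψ, Ad M → Cd M Ψ → Co ⊤ (aa ρ ι Ψ) (z M A ι Ψ)
  map : ∀ M (A B : Type) [CommRing A] [CommRing B] (f : A →+* B) ι Ψ g i, Ad M →
    f (z M A ι Ψ g i) = z M B (f.comp ι) (f.toMonoidHom.comp Ψ) g i
  two : ∀ M (A : Type) [CommRing A] ι Ψ, Ad M → Cd M Ψ → z (M * pp) A ι Ψ = z M A ι Ψ
  odd : ∀ M (A : Type) [CommRing A] ι Ψ l P φ, Ad M → Cd M Ψ → Ov l P → l ∉ S → ¬ l ∣ M → Fb l P φ →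
    (l : A) • z (M * l) A ι Ψ = (l - a l * Ψ φ + Ψ φ ^ 2) • z M A ι Ψ

/-- the corestriction of the twisted cocycle -/
def cor {A : Type} [CommRing A] (ι : Zn N →+* A) (Ψ : GQ →* A) (H : Subgroup GQ)
    (y : GQ → Fin 2 → Zn N) (g : GQ) : Fin 2 → A :=
  ∑ᶠ x : GQ ⧸ H, aa ρ ι Ψ x.out *ᵥ (ι ∘ y (x.out⁻¹ * g * (g⁻¹ • x).out))

/-- Kolyvagin primes -/
structure Kp {R : Type} [CommRing R] (ι : Zn N →+* R) (ψ : GQ →* R) (M : ℕ) where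
  l : ℕ
  P : Ideal (𝓞 Qb)
  φ : GQ
  τ : GQ
  ov : Ov l P
  fb : Fb l P φ
  gn : Gn l P τ
  out : l ∉ S
  cop : ¬ l ∣ M
  md : l % pp ^ (N + 2) = 1
  det : (1 - aa ρ ι ψ φ).det = 0

variable {ρ S}

/-- distinct primes -/
def Inj {R : Type} [CommRing R] {ι : Zn N →+* R} {ψ : GQ →* R} {M : ℕ} (n : Finset (Kp ρ S ι ψ M)) :
    Prop := ∀ k ∈ n, ∀ k' ∈ n, k.l = k'.l → k = k'

open scoped Classical in
/-- **Kolyvagin classes** -/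
structure Ks {R : Type} [CommRing R] {ι : Zn N →+* R} {ψ : GQ →* R} {M : ℕ}
    (κ : Finset (Kp ρ S ι ψ M) → GQ → Fin 2 → R) : Prop where
  cc : ∀ n, Inj n → Cc ⊤ (S ∪ M.primeFactors ∪ n.image (·.l)) (aa ρ ι ψ) (κ n)
  fs : ∀ n k, k ∉ n → Inj (insert k n) →
    κ (insert k n) k.τ = -((1 - aa ρ ι ψ k.φ).adjugate *ᵥ κ n k.φ)

/-- from the raw to the exact Euler system -/
def SHP : Prop := ∀ (N : ℕ) (ρ : GQ →* M2 (Zn N)) S a Ad y, Gr ρ S a Ad → Raw ρ S a Ad y →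
  ∀ g₀ ∈ Ha, ∃ z, Eu ρ S a Ad z ∧ ∀ M (A : Type) [CommRing A] ι Ψ, Ad M → Cd M Ψ →
    Co ⊤ (aa ρ ι Ψ) (cor ρ ι Ψ (Hm M) (y M)) ∧
    Ch ⊤ (aa ρ ι Ψ) (z M A ι Ψ) (ι (ρ g₀ - 1).det ^ 2 • cor ρ ι Ψ (Hm M) (y M)) ∧
    ∀ T, Tv ⊤ (Hm M) T → Ch (Hm M) (aa ρ ι Ψ) (cor ρ ι Ψ (Hm M) (y M))
      fun g => ∑ s ∈ T, Ψ s • (ι ∘ cj ρ s (y M) g)

/-- the classes are unramified, in the strong sense -/
def UNR : Prop := ∀ (N : ℕ) (ρ : GQ →* M2 (Zn N)) S a Ad z, Gr ρ S a Ad → Eu ρ S a Ad z →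
  ∀ M (A : Type) [CommRing A] ι (Ψ : GQ →* A), Ad M → Cd M Ψ → (∀ g, IsNilpotent (Ψ g - 1)) →
  ∀ l P i, Ov l P → l ∉ S → Inert P i → Ψ i = 1 → z M A ι Ψ i = 0

/-- the derivative classes; the second family vanishes at the complex conjugation -/
def KOL : Prop := ∀ (N : ℕ) (ρ : GQ →* M2 (Zn N)) S a Ad z, Gr ρ S a Ad → Eu ρ S a Ad z →
  ∀ M (R : Type) [CommRing R] ι (ψ : GQ →* R), Ad M → Cd M ψ → (∀ g, IsNilpotent (ψ g - 1)) →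
  (∃ κ : Finset (Kp ρ S ι ψ M) → GQ → Fin 2 → R, Ks κ ∧ κ ∅ = z M R ι ψ) ∧
  ∀ c, IsConj c → ∃ κ : Finset (Kp ρ S ι ψ M) → GQ → Fin 2 → R, Ks κ ∧ (∀ n, Inj n → κ n c = 0) ∧
    Ch ⊤ (aa ρ ι ψ) (κ ∅) (2 • z M R ι ψ)

end Vale.Agent.P014U.Dr
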