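import Vale.Agent.P014U.Dr.St
import Vale.Agent.P014T.Dr.Cy

/-! # P014U, block DER: cyclotomic characters, the cyclotomic variable (helper7) -/

set_option linter.all false

open NumberField Polynomial Finset

noncomputable section

namespace Vale.Agent.P014U.Dr

open Vale.Agent.P022 (Qb GQ)
open Vale.Agent.P027M.S (Inert)
open Vale.Agent.P022E.GW (Ov Fb)

export Vale.Agent.P014T.Dr (nil_mul unit_of au au_single au_zero Hm_le Ha_le Hm_normal Ha_normal
  root_cong inert_Hm ex_cy Hm_open)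

variable [Pp]

section alg

variable {A : Type} [CommRing A]

theorem geom_mem (x : A) (m : ℕ) :
    ∑ i ∈ range (pp ^ m), x ^ i ∈ (Ideal.span {(pp : A), x - 1} : Ideal A) ^ m := by
  have s (a j : ℕ) : ∑ i ∈ range (a * j), x ^ i = (∑ i ∈ range a, x ^ i) * ∑ r ∈ range j, (x ^ a) ^ r := by
    induction j with
    | zero => simp
    | succ j ih => simp only [mul_add, mul_one, sum_range_add, ih, sum_range_succ, pow_add, sum_mul,
        pow_mul, mul_comm ((x ^ a) ^ j), range_zero, sum_empty, zero_add, add_zero, pow_zero]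
  induction m with
  | zero => simp
  | succ m ih =>
    rw [pow_succ pp, s, pow_succ]
    refine Ideal.mul_mem_mul ih (Ideal.Quotient.eq_zero_iff_mem.1 ?_)
    have a : Ideal.Quotient.mk (Ideal.span {(pp : A), x - 1}) x = 1 :=
      Ideal.Quotient.eq.2 (Ideal.subset_span (by simp))
    simp only [map_sum, map_pow, a, one_pow, sum_const, card_range, nsmul_eq_mul, mul_one]
    exact Ideal.Quotient.eq_zero_iff_mem.2 (Ideal.subset_span (by simp))

theorem span_nil {x y : A} (hx : IsNilpotent x) (hy : IsNilpotent y) :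
    IsNilpotent (Ideal.span {x, y} : Ideal A) :=
  (Ideal.FG.isNilpotent_iff_le_nilradical (Submodule.fg_span (Set.toFinite _))).2
    (Ideal.span_le.2 (by rintro _ (rfl | rfl) <;> assumption))

theorem geom_nil (h2 : IsNilpotent (pp : A)) {x : A} (hx : IsNilpotent (x - 1)) :
    ∃ m₀, ∀ m, m₀ ≤ m → ∑ i ∈ range (pp ^ m), x ^ i = 0 := by
  obtain ⟨n, hn⟩ := span_nil h2 hx
  exact ⟨n, fun m h => by simpa [hn] using Ideal.pow_le_pow_right h (geom_mem x m)⟩

theorem nil_of_pow (h2 : IsNilpotent (pp : A)) {x : A} {k : ℕ} (h : x ^ pp ^ k = 1) :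
    IsNilpotent (x - 1) := by
  obtain ⟨r, hr⟩ := exists_add_pow_prime_pow_eq pp_prime (x - 1) 1 k
  rw [sub_add_cancel, h, one_pow] at hr
  refine .of_pow (m := pp ^ k) ?_
  rw [show (x - 1) ^ pp ^ k = pp * -((x - 1) * r) by linear_combination -hr]
  exact (Commute.all _ _).isNilpotent_mul_right h2

theorem int_unit (h2 : IsNilpotent (pp : A)) {n : ℤ} (h : ¬ (pp : ℤ) ∣ n) : IsUnit (n : A) := by
  obtain ⟨u, v, e⟩ := ((Nat.prime_iff_prime_int.1 pp_prime).irreducible.coprime_iff_not_dvd).2 h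
  have := congrArg (Int.cast : ℤ → A) e
  push_cast at this
  refine isUnit_of_mul_isUnit_right (x := (v : A)) (unit_of ?_)
  rw [show (v * n - 1 : A) = pp * -u by linear_combination this]
  exact (Commute.all _ _).isNilpotent_mul_right h2

theorem odd_unit (h2 : IsNilpotent (pp : A)) {n : ℕ} (h : ¬ pp ∣ n) : IsUnit (n : A) := by
  simpa using int_unit h2 (n := n) (by exact_mod_cast h)

theorem two_unit (h2 : IsNilpotent (pp : A)) : IsUnit (2 : A) := by simpa using odd_unit h2 not_dvd_two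

theorem geom_zero (h2 : IsNilpotent (pp : A)) {s : A} (hs : IsNilpotent (s - 1)) {l : ℕ} {t : ℤ}
    (ht : (pp : ℤ) ∣ l - t + 1) : ∃ m₀, ∀ m, m₀ ≤ m → ∀ (B : Type) [CommRing B] (j : A →+* B) (x : B),
      IsNilpotent (x - 1) → l - t * (j s * x) + (j s * x) ^ 2 = 0 → ∑ i ∈ range (pp ^ m), x ^ i = 0 := by
  obtain ⟨n, hn⟩ := span_nil h2 hs
  refine ⟨2 * n, fun m h B _ j x hx z => ?_⟩
  set J := (Ideal.span {(pp : A), s - 1}).map j
  have a : (pp : B) ∈ J := map_natCast j pp ▸ Ideal.mem_map_of_mem j (Ideal.subset_span (by simp))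
  have b : j s - 1 ∈ J := by
    simpa using Ideal.mem_map_of_mem j (Ideal.subset_span (show s - 1 ∈ ({(pp : A), s - 1} : Set A) by simp))
  obtain ⟨c, hc⟩ := ht
  replace hc := congrArg (Int.cast : ℤ → B) hc
  push_cast at hc
  have d : (x - 1) * (x - l) ∈ J := by
    rw [show (x - 1) * (x - l) = pp * -(c * x) +
      (j s - 1) * (t * x - (j s + 1) * x ^ 2) by linear_combination z - x * hc]
    exact J.add_mem (J.mul_mem_right _ a) (J.mul_mem_right _ b)
  have e : (x - 1) * (x - 1) ∈ J := by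
    by_cases k : (pp : ℤ) ∣ 1 - l
    · obtain ⟨r, hr⟩ := k
      replace hr := congrArg (Int.cast : ℤ → B) hr
      push_cast at hr
      rw [show (x - 1) * (x - 1) = (x - 1) * (x - l) + pp * -(r * (x - 1)) by
        linear_combination -(x - 1) * hr]
      exact J.add_mem d (J.mul_mem_right _ a)
    · have u := hx.isUnit_add_right_of_commute
        (int_unit (by simpa using h2.map j) k) (Commute.all _ _)
      push_cast at u
      rw [sub_add_sub_cancel] at u
      exact J.mul_mem_right _ ((J.mul_unit_mem_iff_mem u).1 d)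
  have f : (Ideal.span {(pp : B), x - 1}) ^ 2 ≤ J := by
    rw [sq, Ideal.span_pair_mul_span_pair, Ideal.span_le]
    rintro _ (rfl | rfl | rfl | rfl)
    exacts [J.mul_mem_right _ a, J.mul_mem_right _ a, J.mul_mem_left _ a, e]
  have g := Ideal.pow_le_pow_right h (geom_mem x m)
  rw [pow_mul] at g
  replace g := Ideal.pow_right_mono f n g
  simpa [J, ← Ideal.map_pow, hn] using g

theorem geom_dvd (h2 : IsNilpotent (pp : A)) {s : A} (hs : IsNilpotent (s - 1)) {l : ℕ} {t : ℤ}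
    (ht : (pp : ℤ) ∣ l - t + 1) : ∃ m₀, ∀ m, m₀ ≤ m → ∀ (B : Type) [CommRing B] (j : A →+* B) (x : B),
      IsNilpotent (x - 1) → l - t * (j s * x) + (j s * x) ^ 2 ∣ ∑ i ∈ range (pp ^ m), x ^ i :=
  (geom_zero h2 hs ht).imp fun _ H m h B _ j x hx => by
    let π := Ideal.Quotient.mk (Ideal.span {l - t * (j s * x) + (j s * x) ^ 2})
    refine Ideal.mem_span_singleton.1 (Ideal.Quotient.eq_zero_iff_mem.1 ?_)
    simpa only [map_sum, map_pow] using H m h _ (π.comp j) (π x) (by simpa using hx.map π) (by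
      have : π _ = 0 := Ideal.Quotient.eq_zero_iff_mem.2 (Ideal.mem_span_singleton_self _)
      simpa only [map_add, map_sub, map_mul, map_pow, map_natCast, map_intCast, RingHom.comp_apply] using this)

end alg

variable {l M : ℕ} {P : Ideal (𝓞 Qb)} {g φ τ : GQ}

theorem nd_two (o : Ov l P) (l2 : l ≠ pp) (n : ℕ) : ¬ l ∣ pp ^ n := fun h =>
  l2 ((Nat.prime_dvd_prime_iff_eq o.1 pp_prime).1 (o.1.dvd_of_dvd_pow h))

theorem nd_pp (o : Ov l P) (l2 : l ≠ pp) : ¬ pp ∣ l := fun h =>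
  l2 ((Nat.prime_dvd_prime_iff_eq pp_prime o.1).1 h).symm

/-- **the cyclotomic variable** -/
theorem ex_var {A : Type} [CommRing A] (h2 : IsNilpotent (pp : A)) (o : Ov l P) (l2 : l ≠ pp)
    (f : Fb l P φ) {s : A} (hs : IsNilpotent (s - 1)) (t : ℤ) :
    ∃ (k : ℕ) (B : Type) (_ : CommRing B) (j : A →+* B) (e : B →+* A) (γ : GQ →* B),
      (∀ x, e (j x) = x) ∧ (∀ g, e (γ g) = 1) ∧ Cd (pp ^ k) γ ∧ (∀ g, IsNilpotent (γ g - 1)) ∧
      ∀ u, (l - t * (j s * γ φ) + (j s * γ φ) ^ 2) * u = 0 → e u = 0 := by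
  by_cases ht : (pp : ℤ) ∣ l - t + 1
  swap
  · refine ⟨0, A, inferInstance, .id A, .id A, 1, fun _ => rfl, fun _ => rfl, fun _ _ => rfl,
      fun _ => by simp, fun u h => (IsUnit.mul_right_eq_zero ?_).1 h⟩
    have := ((Commute.all _ (s + 1 - t)).isNilpotent_mul_right hs).isUnit_add_right_of_commute
      (int_unit h2 ht) (Commute.all _ _)
    simp only [RingHom.id_apply, MonoidHom.one_apply, mul_one]
    exact show (s - 1) * (s + 1 - t) + ((l - t + 1 : ℤ) : A) = l - t * s + s ^ 2 by push_cast; ring ▸ this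
  obtain ⟨m, hm⟩ := geom_dvd h2 hs ht
  obtain ⟨k, hk⟩ : ∃ k, l ^ ((pp - 1) * pp ^ m) < pp ^ (k + 1) := ⟨_, (Nat.lt_pow_self one_lt).trans
    (Nat.pow_lt_pow_right one_lt (Nat.lt_succ_self _))⟩
  have := NeZero.mk (pow_ne_zero (k + 1) pp_ne)
  obtain ⟨ζ, χ, h1, -, h3, h4⟩ := ex_cy (pp ^ (k + 1))
  have c (g : (ZMod (pp ^ (k + 1)))ˣ) : (g ^ (pp - 1)) ^ pp ^ k = 1 := by
    have := pow_card_eq_one (x := g)
    rwa [ZMod.card_units_eq_totient, Nat.totient_prime_pow_succ pp_prime, mul_comm, pow_mul] at this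
  obtain ⟨n, -, hn⟩ := (Nat.dvd_prime_pow pp_prime).1 (orderOf_dvd_of_pow_eq_one (c (χ φ)))
  have le : m ≤ n := by_contra fun a => by
    have := congrArg (fun x : (ZMod (pp ^ (k + 1)))ˣ => (x : ZMod (pp ^ (k + 1))).val)
      (orderOf_dvd_iff_pow_eq_one.1 (hn ▸ pow_dvd_pow pp (not_le.1 a).le : orderOf _ ∣ pp ^ m))
    have : Fact (1 < pp ^ (k + 1)) := ⟨Nat.one_lt_pow k.succ_ne_zero one_lt⟩
    simp only [Units.val_pow_eq_pow_val, h4 φ l (root_cong o (nd_two o l2 _) f h1.pow_eq_one),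
      ← pow_mul, ← Nat.cast_pow, ZMod.val_cast_of_lt hk, Units.val_one, ZMod.val_one] at *
    exact (Nat.one_lt_pow (mul_ne_zero (Nat.sub_ne_zero_of_lt one_lt) (pow_ne_zero m pp_ne))
      o.1.one_lt).ne' ‹_›
  have nl g : IsNilpotent (MonoidAlgebra.of A _ (χ g ^ (pp - 1)) - 1) := nil_of_pow
    (by simpa only [map_natCast] using h2.map (algebraMap A _)) (k := k) (by rw [← map_pow, c, map_one])
  refine ⟨k + 1, MonoidAlgebra A (ZMod (pp ^ (k + 1)))ˣ, inferInstance, algebraMap _ _, au _ _,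
    (MonoidAlgebra.of A _).comp ((powMonoidHom (pp - 1)).comp χ), fun x => au_single _ _,
    fun g => au_single _ _, fun g hg => by simp [(h3 g).1 hg, MonoidAlgebra.one_def], nl,
    fun u h => au_zero (χ φ ^ (pp - 1)) ?_⟩
  obtain ⟨r, hr⟩ := hm n le _ (algebraMap A _) _ (nl φ)
  rw [hn, hr, mul_right_comm]
  exact mul_eq_zero_of_left h _

/-- the tame character -/
theorem ex_chi {N : ℕ} (o : Ov l P) (t : Gn l P τ) (md : l % pp ^ (N + 2) = 1) :
    ∃ χ : GQ →* Multiplicative (Zn N), (∀ g ∈ Hm l, χ g = 1) ∧ χ τ = .ofAdd 1 := by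
  have := Fact.mk o.1
  obtain ⟨ζ, χ, h1, h2, h3, -⟩ := ex_cy l
  have d : pp ^ (N + 2) ∣ l - 1 := (Nat.modEq_iff_dvd' o.1.one_le).1
    (md.trans (Nat.mod_eq_of_lt (Nat.one_lt_pow (by omega) one_lt)).symm).symm
  obtain ⟨m, hm⟩ := (dvd_pow_self pp (by omega)).trans d
  have ns := t.pow o (m := m) (by have := o.1.one_lt; omega) h1 (h2 τ)
  obtain ⟨E⟩ : Nonempty (Multiplicative (ZMod (l - 1)) ≃* (ZMod l)ˣ) := by
    have := zmodCyclicMulEquiv (G := (ZMod l)ˣ) inferInstance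
    rw [Nat.card_eq_fintype_card, ZMod.card_units] at this
    exact ⟨this⟩
  have : NeZero (l - 1) := ⟨by have := o.1.one_lt; omega⟩
  obtain ⟨a, ha⟩ := ZMod.natCast_zmod_surjective (E.symm (χ τ)).toAdd
  have oa : ¬ pp ∣ a := fun ⟨b, hb⟩ => ns (by
    rw [ZMod.natCast_zmod_val, ← E.apply_symm_apply (χ τ), ← ofAdd_toAdd (E.symm _), ← ha,
      ← Units.val_pow_eq_pow_val, ← map_pow, ← ofAdd_nsmul, hb, nsmul_eq_mul, ← Nat.cast_mul,
      mul_left_comm, ← mul_assoc, ← hm, Nat.cast_mul, ZMod.natCast_self]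
    simp)
  obtain ⟨u, hu⟩ := ((ZMod.isUnit_iff_coprime a (pp ^ N)).2
    (((pp_prime.coprime_iff_not_dvd).2 oa).symm.pow_right N)).exists_left_inv
  have d' : pp ^ N ∣ l - 1 := (pow_dvd_pow pp (by omega)).trans d
  refine ⟨((AddMonoidHom.mulLeft u).comp (ZMod.castHom d' (Zn N)).toAddMonoidHom).toMultiplicative.comp (E.symm.toMonoidHom.comp χ),
    fun g hg => by simp [(h3 g).1 hg], ?_⟩
  exact congrArg Multiplicative.ofAdd (show u * ZMod.castHom d' (Zn N) (E.symm (χ τ)).toAdd = 1 by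
    rw [← ha, map_natCast, hu])

end Vale.Agent.P014U.Dr
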